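import Vale.Agent.P113.Field

open Set Vale.Agent.P113

theorem Vale.Agent.Results.P113.Halting.result (ν : ℝ) (hν : 0 < ν) (hc : ComputableReal ν) :
    ∃ (a : T3) (O : Set T3)
      (compile : List Bool × List (List (ℕ × ℕ × ℕ)) × List ℕ → Nat.Partrec.Code)
      (f : (M : TM) → List (Fin (M.nS + 1)) → ℝ → T3 → Fin 3 → ℝ) (T₀ : ℝ),
      IsOpen O ∧ Computable compile ∧
      (∀ M w, (∀ i, Smooth fun t x => f M w t x i) ∧ Computes (compile (M.code w)) (f M w)) ∧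
      (∀ M, ∃ τ > 0, ∀ w, ∀ t ≥ T₀, f M w (t + τ) = f M w t) ∧
      (∀ M w w', ∀ t ≥ T₀, f M w t = f M w' t) ∧
      ∀ M w, ∃ (u : ℝ → T3 → Fin 3 → ℝ) (p : ℝ → T3 → ℝ),
        (∀ i, Smooth fun t x => u t x i) ∧ Smooth p ∧
        (∀ T > 0, Classical ν (f M w) T u p) ∧
        (∀ T > 0, ∀ v q, Classical ν (f M w) T v q → ∀ t ∈ Icc 0 T, v t = u t ∧ q t = p t) ∧
        (∃ X, IsTraj u a X) ∧
        ∀ X, IsTraj u a X → ((∃ t ≥ 0, proj (X t) ∈ O) ↔ M.Halts w) :=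
  Vale.Agent.P113.main ν hν hc
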